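import Vale.Agent.P241GI.Sm

/-!
# P241G, block I: the rows `I1` and `I2`
-/

open CategoryTheory MonoidalCategory OnePoint Topology Filter MulAction
open Vale.Agent.P251.G Vale.Agent.P251.G.LC Vale.Agent.P251.St Vale.Agent.P241.St
open Vale.Agent.P241 Vale.Agent.P241.Geo Vale.Agent.P241GR Vale.Agent.P241Z

noncomputable section

namespace Vale.Agent.P241GI

variable {G : Type} [Group G] [Finite G]

theorem gfc_pSp {I B : Type} [Fintype I] [MulAction G I] [TopologicalSpace B] [DiscreteTopology B]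
    [MulAction G B] [Finite B] {J : B → Set I} (hJ : Eqf G J) (r : ℕ) : GFC G (pSp hJ r) := by
  induction r with
  | zero =>
    refine gfc_points _ _ fun p => ⟨fun h => Fn.ext fun i => le_antisymm (not_lt.1 fun h3 => ?_)
      (h.1 i), fun h => ?_⟩
    · exact Set.eq_empty_iff_forall_notMem.1
        ((Set.ncard_eq_zero (Set.toFinite _)).1 (Nat.le_zero.1 h.2.2)) i h3
    · have h1 : ∀ i, p.2.ev i = 0 := fun i => by rw [h]; rfl
      exact ⟨fun i => (h1 i).ge, fun i _ => h1 i, by simp [h1]⟩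
  | succ r ih =>
    exact gfc_pSp_succ hJ r ih (gfc_oSp hJ r (@gfc_vSp G _ I _ _ _ (r + 1) (Sb J (r + 1)) _ _
      (hJ.act (r + 1)) _ _ (hJ.sb (r + 1)) fun q => q.2.2))

variable (G) in
/-- Row `I1`. -/
theorem i1 : I1 G := by
  let _ : Fintype G := Fintype.ofFinite G
  have hJ : Eqf G (fun _ : PUnit => (Set.univ : Set G)) := fun g _ => Set.smul_set_univ.symm
  obtain ⟨n, hn⟩ : ∃ n, Fintype.card G = n + 1 := Nat.exists_eq_succ_of_ne_zero Fintype.card_ne_zero
  have hn' : ∀ b : PUnit, ((fun _ : PUnit => (Set.univ : Set G)) b).ncard = n + 1 := fun _ => by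
    rw [Set.ncard_univ, Nat.card_eq_fintype_card, hn]
  have h0 : (Fintype.card G : ℝ) ≠ 0 := Nat.cast_ne_zero.2 Fintype.card_ne_zero
  let μ : Fn G → ℝ := fun x => -(∑ k, x.ev k) / Fintype.card G
  have hμ : Continuous μ :=
    (continuous_finsetSum _ fun k _ => Fn.continuous_ev k).neg.div_const _
  have hs : ∀ t (x : Fn G) i, (sh Set.univ t x).ev i = x.ev i + t := fun t x i =>
    sh_of_mem t x trivial
  have hS : ∀ t (x : Fn G), ∑ k, (sh Set.univ t x).ev k = ∑ k, x.ev k + Fintype.card G * t :=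
    fun t x => by simp [hs, Finset.sum_add_distrib]
  have key : ∀ y : Fn G, ∑ k, y.ev k = 0 → ∀ t i,
      (sh Set.univ (μ (sh Set.univ t y)) (sh Set.univ t y)).ev i = y.ev i := fun y h t i => by
    rw [hs, hs]
    simp only [μ]
    rw [hS, h]
    field_simp
    ring
  have hv : Continuous fun y : (redS G).carrier => (show Fn G from y.1) := continuous_subtype_val
  refine H32.gfc_of_homeo (gfc_pSp hJ n)
    { toFun := fun p => ⟨sh Set.univ (μ p.1.2) p.1.2, (finsum_eq_sum_of_fintype _).trans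
        ((hS _ _).trans (by simp only [μ]; field_simp; ring))⟩
      invFun := fun y => ⟨(PUnit.unit, sh Set.univ (-mn Set.univ y.1) y.1),
        sh_mem hn' (PUnit.unit, y.1)⟩
      left_inv := fun p => Subtype.ext (Prod.ext rfl (Fn.ext fun i => ?_))
      right_inv := fun y => Subtype.ext (Fn.ext fun i => ?_)
      continuous_toFun := ?_
      continuous_invFun := ?_ } fun g p => Subtype.ext ?_
  · refine (hs _ _ i).trans ?_
    rw [hs, mn_sh hn' p.2, add_neg_cancel_right]
  · exact key y.1 ((finsum_eq_sum_of_fintype _).symm.trans y.2) _ i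
  · have h1 : Continuous fun p : pSet (fun _ : PUnit => (Set.univ : Set G)) n => p.1.2 :=
      continuous_snd.comp continuous_subtype_val
    exact (continuous_sh _ (hμ.comp h1) h1).subtype_mk _
  · exact (continuous_const.prodMk (continuous_sh _ ((continuous_mn Set.univ_nonempty).comp
      hv).neg hv)).subtype_mk _
  · have : μ (g • p.1.2) = μ p.1.2 := by
      simp only [μ, Fn.ev_smul]
      exact congrArg (fun t => -t / _) (Equiv.sum_comp (Equiv.mulLeft g⁻¹) p.1.2.ev)
    refine Fn.ext fun i => (hs _ _ i).trans ?_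
    exact (congrArg (_ + ·) this).trans (hs _ p.1.2 (g⁻¹ • i)).symm

omit [Finite G] in
/-- a closed embedding with an equivariant retraction of the cylinder is a cofibration -/
theorem gcof_closed {A B : GSpace G} (a : A.carrier → B.carrier) (hcl : IsClosedEmbedding a)
    (haG : ∀ (g : G) (x : A.carrier), a (g • x) = g • a x)
    (σ : B.carrier × unitInterval → B.carrier × unitInterval) (hσ : Continuous σ)
    (hσ' : Tendsto σ (cocompact _) (cocompact _)) (hσ0 : ∀ b, σ (b, 0) = (b, 0))
    (hσa : ∀ x t, σ (a x, t) = (a x, t)) (hσr : ∀ p, (σ p).2 = 0 ∨ (σ p).1 ∈ Set.range a)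
    (hσG : ∀ (g : G) b t, σ (g • b, t) = (g • (σ (b, t)).1, (σ (b, t)).2)) :
    GCof (ofClosed (X := L A) (Y := L B) a hcl) := by
  have hmem := H32.mem_range_ofClosed a hcl
  let r : L B ⊗ II ⟶ L B ⊗ II :=
    ofProper (X := LC.of (B.carrier × unitInterval)) (Y := LC.of (B.carrier × unitInterval))
      σ hσ hσ'
  have hr : ∀ (b : B.carrier) (t : unitInterval),
      app r (LC.smash (b : OnePoint B.carrier) (t : OnePoint unitInterval))
        = LC.smash ((σ (b, t)).1 : OnePoint B.carrier) ((σ (b, t)).2 : OnePoint unitInterval) :=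
    fun b t => rfl
  refine gcof_of_isRetr ((isGMap_iff _).1 (H32.isGMap_ofClosed a hcl haG))
    (injective_app_ofClosed _ hcl) (r := r) ⟨fun b => ?_, fun b hb t => ?_, fun p => ?_⟩
    fun g => tensor_ext fun b t => congrArg OnePoint.some (hσG g b t)
  · induction b using OnePoint.rec with
    | infty => rfl
    | coe b => rw [hr, hσ0]
  · induction b using OnePoint.rec with
    | infty => rfl
    | coe b =>
      obtain ⟨x, rfl⟩ := (hmem b).1 hb
      rw [hr, hσa]
  · induction p using OnePoint.rec with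
    | infty => exact ⟨∞, 0, rfl, .inl rfl⟩
    | coe p => exact ⟨_, _, hr p.1 p.2, (hσr p).imp id fun h => (hmem _).2 h⟩

section Cell

variable (H : Subgroup G) [Fintype G]

/-- the fibre through `j` of `k ↦ k⁻¹ • c` -/
def fb (c : G ⧸ H) (j : G) : Set G := {k | k⁻¹ • c = j⁻¹ • c}

/-- the deviation from the fixed points of the stabilizer of `c` -/
def dv (c : G ⧸ H) (x : Fn G) (j : G) : ℝ := x.ev j - mn (fb H c j) x

omit [Finite G] in
theorem dv_nonneg (c : G ⧸ H) (x : Fn G) (j : G) : 0 ≤ dv H c x j :=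
  sub_nonneg.2 (mn_le x rfl)

omit [Finite G] in
theorem continuous_dv (c : G ⧸ H) (j : G) : Continuous fun x => dv H c x j :=
  (Fn.continuous_ev j).sub (continuous_mn ⟨j, rfl⟩)

open scoped Pointwise in
omit [Finite G] in
theorem dv_smul (g : G) (c : G ⧸ H) (x : Fn G) (j : G) :
    dv H (g • c) (g • x) j = dv H c x (g⁻¹ * j) := by
  have : fb H (g • c) j = g • fb H c (g⁻¹ * j) := Set.ext fun k => by
    simp [fb, Set.mem_smul_set_iff_inv_smul_mem, mul_smul]
  rw [dv, this, mn_smul]
  rfl

/-- the retraction -/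
def rt (c : G ⧸ H) (x : Fn G) (t : unitInterval) : Fn G × unitInterval :=
  (Fn.mk fun j => x.ev j - min (t : ℝ) (dv H c x j),
    ⟨max (t - ∑ j, dv H c x j) 0, le_max_right _ _, max_le
      ((sub_le_self _ (Finset.sum_nonneg fun j _ => dv_nonneg H c x j)).trans t.2.2) zero_le_one⟩)

omit [Finite G] in
theorem continuous_rt (c : G ⧸ H) : Continuous fun p : Fn G × unitInterval => rt H c p.1 p.2 := by
  have ht : Continuous fun p : Fn G × unitInterval => (p.2 : ℝ) :=
    continuous_subtype_val.comp continuous_snd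
  have hd := fun j => (continuous_dv H c j).comp (continuous_fst (Y := unitInterval))
  exact (Fn.continuous_mk fun j => ((Fn.continuous_ev j).comp continuous_fst).sub
    (ht.min (hd j))).prodMk
    (((ht.sub (continuous_finsetSum _ fun j _ => hd j)).max continuous_const).subtype_mk _)

end Cell

variable (G) in
/-- Row `I2`. -/
theorem i2 : I2 G := by
  intro P hP H hV hX
  let _ : Fintype G := Fintype.ofFinite G
  let _ : TopologicalSpace (G ⧸ H) := ⊥
  have _ : DiscreteTopology (G ⧸ H) := ⟨rfl⟩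
  obtain ⟨n, ⟨e⟩⟩ := Finite.exists_equiv_fin (G ⧸ H)
  let B := (cell G H 0).prod (reg G)
  have hB : GFC G B := H32.gfc_prod (.cell H 0) gfc_reg
  have htr : ∀ c d : G ⧸ H, ∃ k : G, k⁻¹ • c = d := fun c d =>
    (exists_smul_eq G c d).elim fun k hk => ⟨k⁻¹, by rwa [inv_inv]⟩
  choose κ hκ using htr
  let a : (G ⧸ H) × (Fin n → ℝ) → ((G ⧸ H) × (Fin 0 → ℝ)) × (G → ℝ) := fun x =>
    ((x.1, 0), fun j => x.2 (e (j⁻¹ • x.1)))
  let b : ((G ⧸ H) × (Fin 0 → ℝ)) × (G → ℝ) → (G ⧸ H) × (Fin n → ℝ) := fun x =>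
    (x.1.1, fun i => x.2 (κ x.1.1 (e.symm i)))
  have ha : Continuous a := continuous_prod_of_discrete_left.2 fun c =>
    (continuous_const (y := (c, 0))).prodMk (continuous_pi fun j => continuous_apply (e (j⁻¹ • c)))
  have hb : Continuous b := by
    have : Continuous fun x : (G ⧸ H) × (G → ℝ) => fun i => x.2 (κ x.1 (e.symm i)) :=
      continuous_prod_of_discrete_left.2 fun c => continuous_pi fun j =>
        continuous_apply (κ c (e.symm j))
    exact continuous_fst.fst.prodMk (this.comp (continuous_fst.fst.prodMk continuous_snd))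
  have hcl : IsClosedEmbedding a := Function.LeftInverse.isClosedEmbedding (f := b)
    (fun x => Prod.ext rfl (funext fun i => by simp [a, b, hκ])) hb ha
  have hrg : ∀ x, x ∈ Set.range a ↔ ∀ j k : G, j⁻¹ • x.1.1 = k⁻¹ • x.1.1 → x.2 j = x.2 k := by
    refine fun x => ⟨?_, fun h => ⟨b x, Prod.ext (Prod.ext rfl (Subsingleton.elim _ _))
      (funext fun j => h _ _ (by simp [b, hκ]))⟩⟩
    rintro ⟨y, rfl⟩ j k h
    exact congrArg (fun c => y.2 (e c)) h
  have haG : ∀ (g : G) (x : (cell G H n).carrier), a (g • x) = g • (show B.carrier from a x) :=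
    fun g x => Prod.ext rfl (funext fun j => congrArg (fun c => x.2 (e c))
      (show j⁻¹ • g • x.1 = (g⁻¹ * j)⁻¹ • x.1 by simp [mul_smul]))
  have hbig : ∀ x : B.carrier, Nat.card H ≤ Nat.card (stabilizer G x) ↔ x ∈ Set.range a := by
    intro x
    have hle : stabilizer G x ≤ stabilizer G x.1 := fun g hg => congrArg Prod.fst hg
    refine Iff.trans ?_ (hrg x).symm
    rw [← card_cell H 0 x.1]
    refine ⟨fun h j k hjk => ?_, fun h => Subgroup.card_le_of_le fun g hg => ?_⟩
    · have h1 : k * j⁻¹ ∈ stabilizer G x.1 := Prod.ext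
        (show (k * j⁻¹) • x.1.1 = x.1.1 by rw [mul_smul, hjk, smul_inv_smul]) rfl
      rw [← Subgroup.eq_of_le_of_card_ge hle h] at h1
      have h2 : x.2 ((k * j⁻¹)⁻¹ * k) = x.2 k := congrFun (congrArg Prod.snd h1) k
      simpa using h2
    · refine Prod.ext hg (funext fun j => h (g⁻¹ * j) j ?_)
      have h1 : g • x.1.1 = x.1.1 := congrArg Prod.fst hg
      rw [mul_inv_rev, inv_inv, mul_smul, h1]
  let σ : B.carrier × unitInterval → B.carrier × unitInterval := fun p =>
    ((p.1.1, (rt H p.1.1.1 p.1.2 p.2).1), (rt H p.1.1.1 p.1.2 p.2).2)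
  have hσ : Continuous σ := by
    have h1 : Continuous fun x : (G ⧸ H) × Fn G × unitInterval => rt H x.1 x.2.1 x.2.2 :=
      continuous_prod_of_discrete_left.2 fun c => continuous_rt H c
    have h2 : Continuous fun p : B.carrier × unitInterval => rt H p.1.1.1 p.1.2 p.2 :=
      h1.comp (continuous_fst.fst.fst.prodMk (continuous_fst.snd.prodMk continuous_snd))
    exact (continuous_fst.fst.prodMk h2.fst).prodMk h2.snd
  have hc : GCof (ofClosed (X := L (cell G H n)) (Y := L B) a hcl) := by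
    refine gcof_closed (A := cell G H n) (B := B) a hcl haG σ hσ ?_ (fun x => ?_) (fun x t => ?_)
      (fun p => ?_) fun g x t => ?_
    · intro K hK
      obtain ⟨L, hL, hLK⟩ := mem_cocompact.1 hK
      let ψ : (B.carrier × unitInterval) × (G → ℝ) × unitInterval → B.carrier × unitInterval :=
        fun z => ((z.1.1.1, fun j => z.1.1.2 j + z.2.1 j), z.2.2)
      have h1 : Continuous fun z : (G → ℝ) × (G → ℝ) => fun j => z.1 j + z.2 j := by fun_prop
      have hψ : Continuous ψ := (continuous_fst.fst.fst.prodMk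
        (h1.comp (continuous_fst.fst.snd.prodMk continuous_snd.fst))).prodMk continuous_snd.snd
      refine mem_cocompact.2 ⟨_, (hL.prod ((isCompact_univ_pi fun _ => isCompact_Icc (a := 0)
        (b := 1)).prod isCompact_univ)).image hψ, fun q hq => hLK fun hq' => hq
          ⟨(σ q, fun j => min (q.2 : ℝ) (dv H q.1.1.1 q.1.2 j), q.2), ⟨hq', fun j _ =>
            ⟨le_min q.2.2.1 (dv_nonneg H _ _ j), (min_le_left _ _).trans q.2.2.2⟩, trivial⟩,
            Prod.ext (Prod.ext rfl (funext fun j => sub_add_cancel _ _)) rfl⟩⟩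
    · have h := fun j => dv_nonneg H x.1.1 x.2 j
      refine Prod.ext (Prod.ext rfl (Fn.ext fun j => ?_)) (Subtype.ext ?_)
      · exact (congrArg (_ - ·) (min_eq_left (h j))).trans (sub_zero _)
      · exact max_eq_right (sub_nonpos.2 (Finset.sum_nonneg fun j _ => h j))
    · have h : ∀ j, dv H (a x).1.1 (a x).2 j = 0 := fun j => sub_eq_zero.2
        (mn_eq (s := fb H _ j) rfl fun k hk => ((hrg _).1 ⟨x, rfl⟩ k j hk).ge).symm
      refine Prod.ext (Prod.ext rfl (Fn.ext fun j => ?_)) (Subtype.ext ?_)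
      · exact (congrArg (_ - ·) ((congrArg _ (h j)).trans (min_eq_right t.2.1))).trans (sub_zero _)
      · exact (congrArg (fun s => max (_ - s) 0) (Finset.sum_eq_zero fun j _ => h j)).trans
          (by rw [sub_zero, max_eq_left t.2.1])
    · rcases le_total (p.2 : ℝ) (∑ j, dv H p.1.1.1 p.1.2 j) with h | h
      · exact .inl (Subtype.ext (max_eq_right (sub_nonpos.2 h)))
      · have h1 : ∀ j, (σ p).1.2 j = mn (fb H p.1.1.1 j) p.1.2 := fun j =>
          (congrArg (_ - ·) (min_eq_right ((Finset.single_le_sum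
            (fun j _ => dv_nonneg H _ _ j) (Finset.mem_univ j)).trans h))).trans (sub_sub_cancel _ _)
        refine .inr ((hrg _).2 fun j k hjk => ?_)
        rw [h1, h1, fb, fb, show j⁻¹ • p.1.1.1 = k⁻¹ • p.1.1.1 from hjk]
    · refine Prod.ext (Prod.ext rfl (Fn.ext fun j => ?_)) (Subtype.ext ?_)
      · exact congrArg (fun s => _ - min _ s) (dv_smul H g x.1.1 x.2 j)
      · exact congrArg (fun s => max (_ - s) 0) ((Finset.sum_congr rfl fun j _ =>
          dv_smul H g x.1.1 x.2 j).trans (Equiv.sum_comp (Equiv.mulLeft g⁻¹) _))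
  have hm : ∀ z, Big (Nat.card H) B z ↔
      z ∈ Set.range (app (ofClosed (X := L (cell G H n)) (Y := L B) a hcl)) := fun z => by
    induction z using OnePoint.rec with
    | infty => exact ⟨fun _ => infty_mem_range_app _, fun _ y h => absurd h (infty_ne_coe _)⟩
    | coe z =>
      refine Iff.trans ?_ ((H32.mem_range_ofClosed (A := cell G H n) (B := B) a hcl z).trans
        (hbig z).symm).symm
      exact ⟨fun h => h z rfl, fun h y hy => coe_injective hy ▸ h⟩
  have h0 := sm_mem hP hV hB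
  refine ⟨n, hP.fib ⟨.cell H n, hB, h0.1, ofHom (X := (cell G H n).und) (Y := B.und) _,
    ofHom (X := B.und) (Y := (sm _ B).und) (qq _ B), H32.isGMap_ofClosed a hcl haG,
    (isGMap_iff _).2 eqv_qq, (gCofib_iff _).2 hc, qq_surj, fun z z' => ⟨fun h => ?_, ?_⟩⟩ hX h0.2⟩
  · exact (qq_eq h).imp id fun h => ⟨(hm _).1 h.1, (hm _).1 h.2⟩
  · rintro (rfl | ⟨h1, h2⟩)
    · rfl
    · exact (qq_big ((hm _).2 h1)).trans (qq_big ((hm _).2 h2)).symm

end Vale.Agent.P241GI
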