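import Vale.Agent.P241GR.I
import Vale.Agent.P241.H585.Cone

/-!
# P241G, block I: the open part of a `G`-space with small stabilizers
-/

open CategoryTheory MonoidalCategory OnePoint Topology Filter MulAction
open Vale.Agent.P251.G Vale.Agent.P251.G.LC Vale.Agent.P251.St Vale.Agent.P241.St
open Vale.Agent.P241 Vale.Agent.P241.Geo Vale.Agent.P241GR

noncomputable section

namespace Vale.Agent.P241GI

variable {G : Type} [Group G] [Finite G] (m : ℕ) {X Y : GSpace G}

omit [Finite G] in
theorem card_stab {α : Type} [MulAction G α] (g : G) (x : α) :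
    Nat.card (stabilizer G (g • x)) = Nat.card (stabilizer G x) := by
  rw [stabilizer_smul_eq_stabilizer_map_conj]
  exact Subgroup.card_map_of_injective (MulAut.conj g).injective

theorem isOpen_sm (X : GSpace G) : IsOpen {x : X.carrier | Nat.card (stabilizer G x) < m} := by
  refine isOpen_iff_mem_nhds.2 fun x hx => ?_
  have h : ∀ g : G, ∀ᶠ y in 𝓝 x, g • x ≠ x → g • y ≠ y := fun g => by
    by_cases hg : g • x = x
    · exact .of_forall fun y h => absurd hg h
    · exact ((isOpen_ne_fun (continuous_const_smul g) continuous_id).eventually_mem hg).mono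
        fun y hy _ => hy
  refine (eventually_all.2 h).mono fun y hy => lt_of_le_of_lt (Subgroup.card_le_of_le ?_) hx
  exact fun g hg => by_contra fun h => hy g h hg

/-- The points with a stabilizer of order less than `m`. -/
def sm (X : GSpace G) : GSpace G :=
  P241Z.sub X {x | Nat.card (stabilizer G x) < m} (isOpen_sm m X).isLocallyClosed
    fun g x hx => (card_stab g x).trans_lt hx

/-- The collapse onto the open part. -/
def qq (X : GSpace G) : L X ⟶ L (sm m X) :=
  ofOpen (X := L X) (Y := L (sm m X)) Subtype.val (isOpen_sm m X).isOpenEmbedding_subtypeVal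

/-- The base point and the points with big stabilizer. -/
def Big (X : GSpace G) (x : OnePoint X.carrier) : Prop :=
  ∀ y : X.carrier, x = y → m ≤ Nat.card (stabilizer G y)

variable {m}

theorem qq_coe (x : X.carrier) (h : Nat.card (stabilizer G x) < m) :
    app (qq m X) (x : OnePoint X.carrier) = OnePoint.some (X := (sm m X).carrier) ⟨x, h⟩ :=
  app_ofOpen_coe (X := L X) (Y := L (sm m X)) Subtype.val _ ⟨x, h⟩

theorem qq_big {x : OnePoint X.carrier} (h : Big m X x) : app (qq m X) x = ∞ := by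
  induction x using OnePoint.rec with
  | infty => exact app_infty _
  | coe x =>
    refine app_ofOpen_of_notMem (X := L X) (Y := L (sm m X)) Subtype.val _ ?_
    rintro ⟨y, rfl⟩
    exact absurd y.2 (not_lt.2 (h _ rfl))

omit [Finite G] in
theorem big_or (x : OnePoint X.carrier) :
    Big m X x ∨ ∃ y : X.carrier, Nat.card (stabilizer G y) < m ∧ x = y := by
  by_contra h
  rw [not_or] at h
  exact h.1 fun y hy => not_lt.1 fun hl => h.2 ⟨y, hl, hy⟩

theorem qq_eq {x x' : OnePoint X.carrier} (h : app (qq m X) x = app (qq m X) x') :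
    x = x' ∨ (Big m X x ∧ Big m X x') := by
  rcases big_or (m := m) x with hx | ⟨y, hy, rfl⟩ <;>
    rcases big_or (m := m) x' with hx' | ⟨y', hy', rfl⟩
  · exact .inr ⟨hx, hx'⟩
  · exact absurd ((qq_big hx).symm.trans (h.trans (qq_coe y' hy'))) (infty_ne_coe _)
  · exact absurd ((qq_coe y hy).symm.trans (h.trans (qq_big hx'))) (coe_ne_infty _)
  · exact .inl (congrArg _ (congrArg Subtype.val
      (coe_injective ((qq_coe y hy).symm.trans (h.trans (qq_coe y' hy'))))))

theorem qq_surj : Function.Surjective (app (qq m X)) := fun z => by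
  induction z using OnePoint.rec with
  | infty => exact ⟨∞, app_infty _⟩
  | coe z => exact ⟨_, qq_coe z.1 z.2⟩

theorem big_of {x : OnePoint X.carrier} {y : OnePoint Y.carrier} (h0 : x = ∞ → y = ∞)
    (hs : ∀ g, app (act X g) x = x → app (act Y g) y = y) (h : Big m X x) : Big m Y y := by
  rintro y rfl
  induction x using OnePoint.rec with
  | infty => exact absurd (h0 rfl) (coe_ne_infty _)
  | coe x =>
    exact (h x rfl).trans (Subgroup.card_le_of_le fun g hg =>
      coe_injective (hs g (congrArg OnePoint.some hg)))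

theorem apc {A B : LC} {f f' : A ⟶ B} (h : f = f') (x : OnePoint A) : app f x = app f' x := by
  rw [h]

omit [Finite G] in
theorem _root_.Vale.Agent.P241.Geo.Eqv.ap {f : L X ⟶ L Y} (hf : Eqv f) (g : G)
    (x : OnePoint X.carrier) : app f (app (act X g) x) = app (act Y g) (app f x) :=
  apc (hf g) x

theorem big_map {f : L X ⟶ L Y} (hf : Eqv f) {x : OnePoint X.carrier} (h : Big m X x) :
    Big m Y (app f x) :=
  big_of (fun e => (congrArg (app f) e).trans (app_infty f))
    (fun g e => (hf.ap g x).symm.trans (congrArg (app f) e)) h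

theorem eqv_qq : Eqv (qq m X) := fun g => app_ext fun x => by
  rw [app_comp, app_comp]
  rcases big_or (m := m) x with hx | ⟨y, hy, rfl⟩
  · rw [qq_big hx, app_infty]
    exact qq_big fun y hy => by
      induction x using OnePoint.rec with
      | infty => exact absurd ((app_infty _).symm.trans hy) (infty_ne_coe _)
      | coe x => exact coe_injective hy ▸ (hx x rfl).trans_eq (card_stab g x).symm
  · rw [qq_coe y hy]
    exact qq_coe (g • y) ((card_stab g y).trans_lt hy)

theorem cancel {A B C : LC} {a : A ⟶ B} (ha : Function.Surjective (app a)) {k k' : B ⟶ C}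
    (h : a ≫ k = a ≫ k') : k = k' := app_ext fun b => by
  obtain ⟨x, rfl⟩ := ha b
  exact congrArg (fun k => app k x) h

theorem qqI_surj : Function.Surjective (app (qq m X ▷ II)) := fun z => by
  obtain ⟨b, t, rfl⟩ := smash_surjective (X := (sm m X).carrier) (Y := unitInterval) z
  obtain ⟨x, rfl⟩ := qq_surj b
  exact ⟨_, app_whiskerRight_smash _ II x t⟩

theorem desc {A B C : LC} {a : A ⟶ B} (ha : Function.Surjective (app a)) (f : A ⟶ C)
    (h : ∀ x x', app a x = app a x' → app f x = app f x') : ∃ k, a ≫ k = f :=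
  (exists_desc a a (fun p => .inl (ha p)) f f h h h).imp fun _ h => h.1

theorem descI {C : LC} (F : L X ⊗ II ⟶ C) (h : ∀ x (t : unitInterval), Big m X x →
    app F (LC.smash x (t : OnePoint unitInterval)) = ∞) : ∃ k, qq m X ▷ II ≫ k = F := by
  refine desc qqI_surj F fun z z' e => ?_
  obtain ⟨x, t, rfl⟩ := smash_coe_surjective (X := X.carrier) (Y := unitInterval) z
  obtain ⟨x', t', rfl⟩ := smash_coe_surjective (X := X.carrier) (Y := unitInterval) z'
  obtain ⟨e1, e2⟩ := smash_coe_eq_iff.1 ((app_whiskerRight_smash (qq m X) II x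
    (OnePoint.some t)).symm.trans (e.trans (app_whiskerRight_smash (qq m X) II x' (OnePoint.some t'))))
  rcases qq_eq e1 with rfl | ⟨h1, h2⟩
  · rcases e2 with e2 | rfl
    · rcases qq_eq (e2.trans (app_infty _).symm) with rfl | ⟨h1, -⟩
      · rfl
      · exact (h _ _ h1).trans (h _ _ h1).symm
    · rfl
  · exact (h _ _ h1).trans (h _ _ h2).symm

theorem desc_map {f : L X ⟶ L Y} (hf : Eqv f) :
    ∃ k : L (sm m X) ⟶ L (sm m Y), Eqv k ∧ qq m X ≫ k = f ≫ qq m Y := by
  obtain ⟨k, hk⟩ := desc (qq_surj (m := m)) (f ≫ qq m Y) fun x x' e => by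
    rcases qq_eq e with rfl | ⟨h1, h2⟩
    · rfl
    · exact (qq_big (big_map hf h1)).trans (qq_big (big_map hf h2)).symm
  refine ⟨k, fun g => cancel qq_surj ?_, hk⟩
  rw [← Category.assoc, ← eqv_qq g, Category.assoc, hk, ← Category.assoc (qq m X), hk]
  exact (hf.comp eqv_qq) g

theorem desc_htp {f f' : L X ⟶ L Y} (h : GHtp f f') {k k' : L (sm m X) ⟶ L (sm m Y)}
    (hk : qq m X ≫ k = f ≫ qq m Y) (hk' : qq m X ≫ k' = f' ≫ qq m Y) : GHtp k k' := by
  obtain ⟨K, hK, h0, h1⟩ := h
  obtain ⟨K0, e⟩ := descI (m := m) (K ≫ qq m Y) fun x t hx => by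
    have : Eqv (incl t (L X) ≫ K) := fun g => by
      rw [← incl_naturality_assoc, hK g, Category.assoc]
    have h2 := qq_big (big_map this hx)
    rwa [app_comp, app_incl] at h2
  refine ⟨K0, fun g => cancel qqI_surj ?_, cancel qq_surj ?_, cancel qq_surj ?_⟩
  · rw [← comp_whiskerRight_assoc, ← eqv_qq g, comp_whiskerRight_assoc, e, reassoc_of% e,
      reassoc_of% hK g, eqv_qq g]
  · rw [← incl_naturality_assoc, e, reassoc_of% h0, hk]
  · rw [← incl_naturality_assoc, e, reassoc_of% h1, hk']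

theorem sm_he (h : GHEquiv X Y) : GHEquiv (sm m X) (sm m Y) := by
  obtain ⟨f, f', hf, hf', h1, h2⟩ := (gHEquiv_iff X Y).1 h
  obtain ⟨k, hk, e⟩ := desc_map (m := m) hf
  obtain ⟨k', hk', e'⟩ := desc_map (m := m) hf'
  exact (gHEquiv_iff _ _).2 ⟨k, k', hk, hk',
    desc_htp h1 (by rw [reassoc_of% e, e', Category.assoc]) (by simp),
    desc_htp h2 (by rw [reassoc_of% e', e, Category.assoc]) (by simp)⟩

section Ext

variable {A B C : GSpace G} {i : L A ⟶ L B} {k : L (sm m A) ⟶ L (sm m B)}

theorem sm_cof (hi : Eqv i) (hc : GCof i) (hk : Eqv k) (e : qq m A ≫ k = i ≫ qq m B) : GCof k := by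
  have ea : ∀ a, app k (app (qq m A) a) = app (qq m B) (app i a) := fun a =>
    apc e a
  have hinj := hc.injective
  obtain ⟨r, hr, hG⟩ := H486.exists_isRetr_of_gcofib (i := ofHom (X := A.und) (Y := B.und) i)
    ((isGMap_iff i).2 hi) ((gCofib_iff i).2 hc)
  have hG' : ∀ g, (act B g ▷ II) ≫ r = r ≫ (act B g ▷ II) := fun g => cyl_ext fun b t => by
    rw [app_comp, app_comp, app_whiskerRight_smash, app_act, hG]
    obtain ⟨b', t', h, -⟩ := hr.range (LC.smash b (t : OnePoint unitInterval))
    rw [h, app_whiskerRight_smash, app_act]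
    exact H486.smul_smash B ⟨unitInterval⟩ g b' _
  obtain ⟨r0, e0⟩ := descI (m := m) (r ≫ qq m B ▷ II) fun b t hb => by
    obtain ⟨b', t', h, -⟩ := hr.range (LC.smash b (t : OnePoint unitInterval))
    rw [app_comp, h, app_whiskerRight_smash, qq_big (big_of ?_ (fun g hg => ?_) hb)]
    · rfl
    · rintro rfl
      exact (smash_coe_eq_iff.1 (h.symm.trans (app_infty r) : _ = LC.smash ∞ (OnePoint.some t'))).1
    · have := congrArg (fun k => app k (LC.smash b (t : OnePoint unitInterval))) (hG' g)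
      simp only [app_comp] at this
      rw [app_whiskerRight_smash, hg, h, app_whiskerRight_smash] at this
      exact (smash_coe_eq_iff.1 this).1.symm
  have er : ∀ b (t : unitInterval), app r0 (LC.smash (app (qq m B) b) (t : OnePoint unitInterval)) =
      app (qq m B ▷ II) (app r (LC.smash b (t : OnePoint unitInterval))) := fun b t =>
    (congrArg (app r0) (app_whiskerRight_smash _ II b t).symm).trans
      (apc e0 (LC.smash b (t : OnePoint unitInterval)))
  refine gcof_of_isRetr hk (fun a a' h => ?_) (r := r0) ⟨fun b => ?_, ?_, fun z => ?_⟩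
    fun g => cancel qqI_surj ?_
  · obtain ⟨a, rfl⟩ := qq_surj a
    obtain ⟨a', rfl⟩ := qq_surj a'
    have hb : ∀ a, Big m B (app i a) → Big m A a := fun a => big_of
      (fun h => hinj (h.trans (app_infty i).symm)) fun g h => hinj ((hi.ap g a).trans h)
    rcases qq_eq ((ea a).symm.trans (h.trans (ea a'))) with h | ⟨h1, h2⟩
    · rw [hinj h]
    · exact (qq_big (hb _ h1)).trans (qq_big (hb _ h2)).symm
  · obtain ⟨b, rfl⟩ := qq_surj b
    rw [er, hr.zero, app_whiskerRight_smash]
  · rintro _ ⟨a, rfl⟩ t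
    obtain ⟨a, rfl⟩ := qq_surj a
    rw [ea, er, hr.mem _ ⟨a, rfl⟩, app_whiskerRight_smash]
  · obtain ⟨b, t, rfl⟩ := smash_coe_surjective (X := (sm m B).carrier) (Y := unitInterval) z
    obtain ⟨b, rfl⟩ := qq_surj b
    obtain ⟨b', t', h, h'⟩ := hr.range (LC.smash b (t : OnePoint unitInterval))
    refine ⟨app (qq m B) b', t', by rw [er, h, app_whiskerRight_smash], h'.imp id ?_⟩
    rintro ⟨a, rfl⟩
    exact ⟨_, ea a⟩
  · rw [← comp_whiskerRight_assoc, ← eqv_qq g, comp_whiskerRight_assoc, e0, reassoc_of% e0,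
      reassoc_of% hG' g, ← comp_whiskerRight, ← comp_whiskerRight, eqv_qq g]

theorem sm_quot {q : L B ⟶ L C} {l : L (sm m B) ⟶ L (sm m C)} (hq : Eqv q)
    (h : IsQuot (ofHom (X := A.und) (Y := B.und) i) (ofHom (X := B.und) (Y := C.und) q))
    (e : qq m A ≫ k = i ≫ qq m B) (e' : qq m B ≫ l = q ≫ qq m C) :
    IsQuot (ofHom (X := (sm m A).und) (Y := (sm m B).und) k)
      (ofHom (X := (sm m B).und) (Y := (sm m C).und) l) := by
  have ea : ∀ a, app k (app (qq m A) a) = app (qq m B) (app i a) := fun a =>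
    apc e a
  have eb : ∀ b, app l (app (qq m B) b) = app (qq m C) (app q b) := fun b =>
    apc e' b
  have h2 : ∀ b b', app q b = app q b' ↔
    b = b' ∨ (b ∈ Set.range (app i) ∧ b' ∈ Set.range (app i)) := h.2
  have r1 : ∀ b ∈ Set.range (app i), app (qq m B) b ∈ Set.range (app k) := by
    rintro _ ⟨a, rfl⟩
    exact ⟨_, ea a⟩
  have r2 : ∀ b, Big m C (app q b) → app (qq m B) b ∈ Set.range (app k) := fun b hb => by
    by_cases hr : b ∈ Set.range (app i)
    · exact r1 b hr
    · rw [qq_big (big_of (fun h => ((h2 _ _).1 (h.trans (app_infty q).symm)).resolve_right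
        fun h => hr h.1) (fun g h => ((h2 _ _).1 ((hq.ap g b).trans h)).resolve_right
        fun h => hr h.2) hb)]
      exact infty_mem_range_app k
  have r3 : ∀ b ∈ Set.range (app k), app l b = ∞ := by
    rintro _ ⟨a, rfl⟩
    obtain ⟨a, rfl⟩ := qq_surj a
    rw [ea, eb, (h2 _ ∞).2 (.inr ⟨⟨a, rfl⟩, infty_mem_range_app i⟩), app_infty, app_infty]
  refine ⟨fun c => ?_, fun b b' => ⟨fun hb => ?_, ?_⟩⟩
  · obtain ⟨c, rfl⟩ := qq_surj c
    obtain ⟨b, rfl⟩ := h.1 c
    exact ⟨_, eb b⟩
  · obtain ⟨b, rfl⟩ := qq_surj b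
    obtain ⟨b', rfl⟩ := qq_surj b'
    rcases qq_eq ((eb b).symm.trans (Eq.trans hb (eb b'))) with h | ⟨h1, h3⟩
    · exact ((h2 _ _).1 h).imp (congrArg _) fun h => ⟨r1 _ h.1, r1 _ h.2⟩
    · exact .inr ⟨r2 _ h1, r2 _ h3⟩
  · rintro (rfl | ⟨h1, h3⟩)
    · rfl
    · exact (r3 _ h1).trans (r3 _ h3).symm

end Ext

omit [Finite G] in
theorem card_cell (V : Subgroup G) (n : ℕ) (x : (cell G V n).carrier) :
    Nat.card (stabilizer G x) = Nat.card V := by
  obtain ⟨c, y⟩ := x
  have : stabilizer G (show (cell G V n).carrier from (c, y)) = stabilizer G c :=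
    Subgroup.ext fun g => ⟨fun h => congrArg Prod.fst h, fun h => Prod.ext h rfl⟩
  rw [this]
  obtain ⟨g, rfl⟩ := QuotientGroup.mk_surjective c
  rw [show (g : G ⧸ V) = g • ((1 : G) : G ⧸ V) by simp, card_stab, stabilizer_quotient]

variable {P : GSpace G → Prop}

omit [Finite G] in
theorem both_empty (hP : Thick P) (h : IsEmpty X.carrier) : GFC G X ∧ P X := by
  have h' : IsEmpty (GSpace.triv G Em).carrier := inferInstanceAs (IsEmpty Empty)
  exact ⟨H32.gfc_of_isEmpty h, hP.hequiv .empty (H32.gHEquiv_of_homeo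
    (Homeomorph.empty : (GSpace.triv G Em).carrier ≃ₜ X.carrier) fun _ x => h'.elim x) hP.empty⟩

/-- The part with small stabilizers is built from small cells. -/
theorem sm_mem (hP : Thick P) (hV : ∀ V : Subgroup G, Nat.card V < m → ∀ n, P (cell G V n))
    (h : GFC G X) : GFC G (sm m X) ∧ P (sm m X) := by
  induction h with
  | empty => exact both_empty hP ⟨fun x => Empty.elim x.1⟩
  | cell V n =>
    by_cases h : Nat.card V < m
    · have e : GHEquiv (cell G V n) (sm m (cell G V n)) := H32.gHEquiv_of_homeo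
        { toFun := fun x => ⟨x, (card_cell V n x).trans_lt h⟩
          invFun := fun x => x.1
          left_inv := fun _ => rfl
          right_inv := fun _ => rfl
          continuous_toFun := continuous_id.subtype_mk _
          continuous_invFun := continuous_subtype_val } fun _ _ => rfl
      exact ⟨.hequiv (.cell V n) e, hP.hequiv (.cell V n) e (hV V h n)⟩
    · exact both_empty hP ⟨fun x => h ((card_cell V n x.1).symm.trans_lt x.2)⟩
  | hequiv _ e ih => exact ⟨.hequiv ih.1 (sm_he e), hP.hequiv ih.1 (sm_he e) ih.2⟩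
  | @ext A B C i q hi hq hc hQ _ _ ihA ihC =>
    have hi' := (isGMap_iff (toHom i)).1 hi
    have hq' := (isGMap_iff (toHom q)).1 hq
    obtain ⟨k, hk, e⟩ := desc_map (m := m) hi'
    obtain ⟨l, hl, e'⟩ := desc_map (m := m) hq'
    have h1 := (gCofib_iff k).2 (sm_cof hi' ((gCofib_iff (toHom i)).1 hc) hk e)
    have h2 := sm_quot hq' hQ e e'
    have h3 := GFC.ext ((isGMap_iff k).2 hk) ((isGMap_iff l).2 hl) h1 h2 ihA.1 ihC.1
    exact ⟨h3, hP.ext ⟨ihA.1, h3, ihC.1, _, _, (isGMap_iff k).2 hk, (isGMap_iff l).2 hl, h1, h2⟩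
      ihA.2 ihC.2⟩

end Vale.Agent.P241GI
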